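import Crest.Agent.X212.Qd40.Tail
import Crest.Agent.X212.Qab60.Reg
import Crest.Agent.X212.Lw78.Cy
import Crest.Agent.X212.Met55.Mix

/-! X212 / QA-DEC (helper40): exponential decay of exact anti-self-dual forms on a half cylinder. -/

set_option autoImplicit false
set_option linter.unusedSectionVars false
noncomputable section
open scoped Manifold ContDiff Topology InnerProductSpace
open MeasureTheory Set Function Filter
open Crest.Agent.R208.F (Ext)

namespace Crest.Agent.X212.Qd40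
open An Sob92 Cyf70 Qab60 Num57 Map77 Nd18 Int54 Ell97
open Dr59 (dM df)
open Lw78 (cw hcs_deriv)
open M (Mf)
open Real (smoothTransition)

section gen
variable {E : Type} [NormedAddCommGroup E] [NormedSpace ℝ E] [FiniteDimensional ℝ E]
  [MeasurableSpace E] [BorelSpace E]
  {HM : Type} [TopologicalSpace HM] {I : ModelWithCorners ℝ E HM} [I.Boundaryless]
  {M : Type} [TopologicalSpace M] [ChartedSpace HM M] [IsManifold I ∞ M] [T2Space M]
  [MeasurableSpace M] [BorelSpace M] [SecondCountableTopology M] {ι : Type} [Fintype ι]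
  {F : Fr I M ι} {o : ι → ι → ι → ι → M → ℝ} {w : M → Ext E} {U : Set M} {x : M}

variable (F o) in
/-- the anti-self-dual part as a section -/
def av (w : M → Ext E) (y : M) : W2 ι := i2 ℝ (V2 ι) (hs F (ng o) y (c2 F w y))

theorem sm_av (h : Tam F o) (hw : Fo I 2 w) : Sm I (av F o w) :=
  (i2 ℝ (V2 ι)).contMDiff.comp (h.neg.cb_hs.choose_spec.1.clm_apply (sm_c2 hw.sm))

theorem s2_av (h0 : hs F o x (c2 F w x) = 0) : s2 ℝ (V2 ι) (av F o w x) = c2 F w x := by
  simpa [h0, av] using hs_add (F := F) (o := o) w x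

/-- closed anti-self-dual forms solve the adjoint equation -/
theorem adj0 (h : Tam F o) (hw : Fo I 2 w) (hd : dM I w = 0) (hU : IsOpen U)
    (h0 : ∀ x ∈ U, hs F o x (c2 F w x) = 0) (hx : x ∈ U) :
    ((hop F (ng o)).adj F).app F (av F o w) x = 0 := by
  obtain ⟨C, hC, hA⟩ := h.neg.good
  obtain ⟨_, hA'⟩ := good_adj hC hA
  have := openPos F.toPre
  set z := ((hop F (ng o)).adj F).app F (av F o w)
  have sz : Sm I z := sm_app hA' (sm_av h hw)
  obtain ⟨ψ, s1, c1, t1, b1, e1⟩ := Met55.exists_bump (I := I) (hU.mem_nhds hx)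
  obtain ⟨χ, s2, c2', -, -, e2⟩ := Met55.exists_cut (I := I) c1.isCompact isOpen_univ (subset_univ _)
  let φ : Sec I (hp F) := ⟨fun y => ψ y • z y, s1.smul sz, c1.smul_right, fun y => by
    rw [map_smul]; exact congrArg _ (q_app hA' _ y)⟩
  have z0 : ∀ y ∉ tsupport ψ, φ.1 =ᶠ[𝓝 y] 0 := fun y hy =>
    (notMem_tsupport_iff_eventuallyEq.1 hy).mono fun y hy => by simp [φ, hy]
  have k := adj_ip hA φ (tst (fun y => χ y • av F o w y) (s2.smul (sm_av h hw)) c2'.smul_right)
  have k1 := h.integ_d (fo_g1 (F := F) φ.2.1) hw hd (hcs_g1 φ.2.2.1).mul_right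
  rw [integ_mul h.ok (fo_g1 φ.2.1).d.dg, c2_dM_g1 φ.2.1 φ.2.2.2] at k1
  have k2 : ∫ y, ψ y * ‖z y‖ ^ 2 ∂F.μ = -∫ y, ⟪dd F φ.1 y, st o y (c2 F w y)⟫_ℝ ∂F.μ := by
    rw [← integral_neg]
    refine Eq.trans (integral_congr_ae (.of_forall fun y => ?_))
      (k.symm.trans (integral_congr_ae (.of_forall fun y => ?_)))
    · by_cases hy : y ∈ tsupport ψ
      · simp only [tst, app_smul s2 (sm_av h hw), (e2 y hy).self_of_nhds, sy,
          fun a => show F.D a χ y = 0 from (dv_congr (e2 y hy)).trans (congrFun (dv_const 1) y)]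
        simp [φ, z, real_inner_smul_left]
      · simp [φ, image_eq_zero_of_notMem_tsupport hy]
    · simp only [tst, inner_smul_right, av, inner2, f2_i2, s2_i2, inner_zero_right, zero_add,
        hs_dd h.neg.ok φ.2.1, hs_symm h.neg.ok, hs_idem h.neg.ok]
      by_cases hy : y ∈ tsupport ψ
      · rw [(e2 y hy).self_of_nhds, ← hs_sub (F := F), h0 y (t1 hy)]; simp
      · have : dd F φ.1 y = 0 := by
          simp [dd, Pre.op, Pre.D_def, dv_congr (z0 y hy), (z0 y hy).self_of_nhds]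
        simp [this]
  have cz : Continuous fun y => ψ y * ‖z y‖ ^ 2 := s1.continuous.mul (sz.continuous.norm.pow 2)
  rw [(mul_eq_zero.1 k1).resolve_left (by norm_num), neg_zero, integral_eq_zero_iff_of_nonneg
    (fun y => mul_nonneg (b1 y).1 (sq_nonneg _)) (cz.integrable_of_hasCompactSupport c1.mul_right),
    cz.ae_eq_iff_eq F.μ continuous_zero] at k2
  simpa [e1.self_of_nhds] using congrFun k2 x

end gen

/-- geometric decay -/
theorem geo_dec {e : ℝ → ℝ} {θ T : ℝ} (hθ : 0 ≤ θ) (ha : AntitoneOn e (Ici T))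
    (h0 : ∀ t, 0 ≤ e t) (h : ∀ t ≥ T, e (t + 1) ≤ θ * (e t - e (t + 1))) :
    ∃ K, ∀ t ≥ T, e t ≤ K * Real.exp (-Real.log ((θ + 2) / (θ + 1)) * t) := by
  set d := Real.log ((θ + 2) / (θ + 1))
  have d0 : 0 ≤ d := Real.log_nonneg ((one_le_div (by positivity)).2 (by linarith))
  have h1 : ∀ k : ℕ, e (T + k) ≤ e T * Real.exp (-d * k) := fun k => by
    induction k with
    | zero => simp
    | succ k ih =>
      have h2 := h (T + k) (le_add_of_nonneg_right k.cast_nonneg)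
      have h3 := ha (show T ≤ T + k from le_add_of_nonneg_right k.cast_nonneg)
        (show T ≤ T + k + 1 by linarith [k.cast_nonneg (α := ℝ)]) (le_add_of_nonneg_right zero_le_one)
      rw [Nat.cast_succ, ← add_assoc, mul_add, Real.exp_add, ← mul_assoc, mul_one, Real.exp_neg,
        Real.exp_log (by positivity), inv_div, ← mul_div_assoc, le_div_iff₀ (by positivity)]
      nlinarith [h0 (T + k + 1)]
  refine ⟨e T * Real.exp (d * (T + 1)), fun t ht => ?_⟩
  have h2 := Nat.floor_le (sub_nonneg.2 ht)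
  refine (ha (show T ≤ T + ⌊t - T⌋₊ from le_add_of_nonneg_right (Nat.cast_nonneg _)) ht
    (by linarith)).trans ((h1 _).trans ?_)
  rw [mul_assoc, ← Real.exp_add]
  have := h0 T
  gcongr
  nlinarith [Nat.lt_floor_add_one (t - T)]

variable {Y : Mf 3} [CompactSpace Y.M] {κ : Type} [Fintype κ] {lam : Type} [Fintype lam]
  {D : YD Y.I Y.M κ lam} {T : ℝ} {a : Y.M × ℝ → Ext (Y.E × ℝ)}

theorem tam (h : D.OK) : Tam D.Z D.B.o :=
  ⟨OK.of_base (G := D.G) (by rw [Module.finrank_prod, Y.dim, Module.finrank_self]) h.B h.G,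
    Cht98.tame_cyl D.F Y.dim.le, fun a b c d =>
      Cht98.Cb_fst _ (Cb_of_compact (sm_slice_fst (h.B.so a b c d) 0))⟩

theorem volY (h : D.Z.IsVol) : D.F.IsVol := by
  have hv := unitV_rf (pre_sp D.F.toPre)
  have e := (isVol_iff (F := cylP D.F.toPre) hv.cy).1 h
  rw [dens_cy hv.cd] at e
  refine isVol_iff_rf.2 (Measure.ext fun s _ => ?_)
  simpa using congrArg (· (s ×ˢ Icc (0 : ℝ) 1)) (show D.F.μ.prod volume = _ from e)

variable (D a) in
/-- the energy above a height -/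
def en (t : ℝ) : ℝ := ∫ x in univ ×ˢ Ici t, ‖c2 D.Z (dM (IC Y.I) a) x‖ ^ 2 ∂D.Z.μ

theorem energy (h : D.OK) : ∃ θ ≥ 0, ∀ T a, Fo (IC Y.I) 1 a →
    (∀ x : Y.M × ℝ, T ≤ x.2 → hs D.Z D.B.o x (c2 D.Z (dM (IC Y.I) a) x) = 0) →
    IntegrableOn (fun x => ‖c2 D.Z (dM (IC Y.I) a) x‖ ^ 2) (univ ×ˢ Ici T) D.Z.μ →
    ∀ t ≥ T, en D a (t + 1) ≤ θ * (en D a t - en D a (t + 1)) := by
  have ht := tam h
  obtain ⟨o, ho, hp⟩ := exists_cy D.F (ori ht.ok)
  obtain ⟨c, c0, hc⟩ := exists_cs (by rw [Y.dim]; decide) (volY h.G.vol) ho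
  let φ : ℝ → ℝ := fun u => smoothTransition (2 * u)
  have sφ : ContDiff ℝ ∞ φ := by fun_prop
  have z0 : ∀ u ≤ 0, φ u = 0 := fun u k => smoothTransition.zero_of_nonpos (by linarith)
  have z1 : ∀ u, 1 / 2 ≤ u → φ u = 1 := fun u k => smoothTransition.one_of_one_le (by linarith)
  obtain ⟨C, hC⟩ := (sφ.continuous_deriv (by simp)).bounded_above_of_compact_support
    (hcs_deriv z0 z1)
  have C0 := (norm_nonneg _).trans (hC 0)
  have zd : ∀ u ∉ Icc (0 : ℝ) (1 / 2), deriv φ u = 0 := fun u k => by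
    rcases not_and_or.1 k with k | k
    · exact (EventuallyEq.deriv_eq ((eventually_lt_nhds (not_le.1 k)).mono fun v hv =>
        z0 v hv.le)).trans (deriv_const _ _)
    · exact (EventuallyEq.deriv_eq ((eventually_gt_nhds (not_le.1 k)).mono fun v hv =>
        z1 v hv.le)).trans (deriv_const _ _)
  refine ⟨2 * (c * (2 * C)), by positivity, fun T a ha h0 hi t htT => ?_⟩
  set n := fun x => ‖c2 D.Z (dM (IC Y.I) a) x‖ ^ 2
  have n0 : ∀ x, 0 ≤ n x := fun _ => sq_nonneg _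
  have ms : ∀ {S : Set ℝ}, MeasurableSet S → MeasurableSet (univ ×ˢ S : Set (Y.M × ℝ)) :=
    MeasurableSet.univ.prod
  have hi' : ∀ {S : Set ℝ}, S ⊆ Ici t → IntegrableOn n (univ ×ˢ S) D.Z.μ := fun k =>
    hi.mono_set (prod_mono_right fun _ j => htT.trans (k j))
  have sp : ∀ {p q : ℝ}, t ≤ p → p ≤ q →
      ∫ x in univ ×ˢ Ico p q, n x ∂D.Z.μ = en D a p - en D a q := fun {p q} k l => by
    rw [eq_sub_iff_add_eq, en, en, ← setIntegral_union (Disjoint.set_prod_right
      (disjoint_left.2 fun _ i j => i.2.not_ge j) _ _) (ms measurableSet_Ici)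
      (hi' fun _ j => k.trans j.1) (hi' fun _ j => k.trans (l.trans j)), ← prod_union,
      Ico_union_Ici_eq_Ici l]
  have lim : Tendsto (en D a) atTop (𝓝 0) := by
    have := tendsto_setIntegral_of_antitone (s := fun s : ℝ => univ ×ˢ Ici s)
      (fun _ => ms measurableSet_Ici) (fun _ _ k => prod_mono_right (Ici_subset_Ici.2 k)) ⟨T, hi⟩
    rwa [show ⋂ s : ℝ, (univ ×ˢ Ici s : Set (Y.M × ℝ)) = ∅ from eq_empty_of_forall_notMem fun x k =>
      (lt_add_one x.2).not_ge (mem_iInter.1 k (x.2 + 1)).2, setIntegral_empty] at this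
  have key : ∀ s ≥ t + 1, en D a (t + 1) - en D a s ≤
      2 * (c * (2 * C)) * (en D a t - en D a (t + 1) + en D a s) := fun s hs => by
    let χ : ℝ → ℝ := fun u => φ (u - t) - φ (u - s)
    have sχ : ContDiff ℝ ∞ χ := by fun_prop
    have dχ : ∀ u, deriv χ u = deriv φ (u - t) - deriv φ (u - s) := fun u =>
      (((sφ.differentiable (by simp) _).hasDerivAt.comp_sub_const u t).sub
        ((sφ.differentiable (by simp) _).hasDerivAt.comp_sub_const u s)).deriv
    have ts : tsupport (deriv χ) ⊆ Icc t (t + 1 / 2) ∪ Icc s (s + 1 / 2) :=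
      closure_minimal (fun u k => by_contra fun j => k (by
        rw [dχ, zd _ fun i => j (.inl ⟨by linarith [i.1], by linarith [i.2]⟩),
          zd _ fun i => j (.inr ⟨by linarith [i.1], by linarith [i.2]⟩), sub_self]))
        (isClosed_Icc.union isClosed_Icc)
    have zχ : ∀ u ∉ Icc t (s + 1), χ u = 0 := fun u k => by
      rcases not_and_or.1 k with k | k <;> rw [not_le] at k
      · simp only [χ, z0 _ (show u - t ≤ 0 by linarith), z0 _ (show u - s ≤ 0 by linarith), sub_self]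
      · simp only [χ, z1 _ (show 1 / 2 ≤ u - t by linarith), z1 _ (show 1 / 2 ≤ u - s by linarith),
          sub_self]
    have cχ : HasCompactSupport fun x : Y.M × ℝ => χ x.2 :=
      .intro (isCompact_univ.prod isCompact_Icc) fun x k => zχ _ fun j => k ⟨trivial, j⟩
    have k1 := Bnd.neck (G := D.F) (F := D.Z) (j := id) (w0 := 1) (w1 := 1) (S := univ) (δ := 2 * C)
      ⟨rfl, isOpen_univ, fun _ _ => contMDiffAt_id, injOn_id _, continuousOn_const,
        continuousOn_const, fun _ _ => one_pos, fun _ _ => one_pos, fun q _ α β =>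
        Finset.sum_congr rfl fun i _ => by cases i <;> simp [wv] <;> rfl⟩
      (g := fun x => χ x.2) ⟨sm_snd sχ, sχ, (isCompact_Icc.union isCompact_Icc).of_isClosed_subset
        isClosed_closure ts, subset_univ _, fun _ _ => rfl, fun x k => absurd ⟨x, ⟨trivial, trivial⟩,
          rfl⟩ k⟩ Y.dim (volY h.G.vol) h.G.vol ho (ori ht.ok)
      (by rwa [Dr59.pm_id, univ_prod_univ]) hc c0 (fun u _ => by
        rw [dχ]; simpa [two_mul] using (abs_sub _ _).trans (add_le_add (hC _) (hC _))) ha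
    have k2 := ht.integ_cut (sm_snd sχ) cχ ha ha.d ha.dd
    have k3 : ∀ x, rat (vol D.Z D.B.o) ((fun x : Y.M × ℝ => χ x.2) • (dM (IC Y.I) a * dM (IC Y.I) a))
        x = -(1 / 2 * (χ x.2 * n x)) := fun x => by
      rw [rat_fsmul, Pi.mul_apply]
      by_cases k : T ≤ x.2
      · simp only [n]
        rw [rat_mul ht.ok (ha.d.dg x), inner_st ht.ok, norm_c2_sq ht.ok, h0 x k]; simp; ring
      · simp [zχ _ fun j => k (htT.trans j.1)]
    rw [ht.ok.integ_eq, funext k3, integral_neg, integral_const_mul, neg_inj] at k2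
    have k4 : ∫ x in univ ×ˢ Ico (t + 1) s, n x ∂D.Z.μ ≤ ∫ x, χ x.2 * n x ∂D.Z.μ := by
      rw [setIntegral_congr_fun (g := fun x => χ x.2 * n x) (ms measurableSet_Ico) fun x k => by
        simp only [χ, z1 _ (show 1 / 2 ≤ x.2 - t by linarith [k.2.1]),
          z0 _ (show x.2 - s ≤ 0 by linarith [k.2.2]), sub_zero, one_mul]]
      exact setIntegral_le_integral (((sm_snd (I := Y.I) sχ).continuous.mul ((sm_c2 ha.d.sm).continuous.norm.pow
        2)).integrable_of_hasCompactSupport cχ.mul_right) (.of_forall fun x => mul_nonneg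
          (sub_nonneg.2 (smoothTransition.monotone (by linarith))) (n0 x))
    have k5 : ∫ x in univ ×ˢ tsupport (deriv χ), n x ∂D.Z.μ ≤
        ∫ x in univ ×ˢ Ico t (t + 1), n x ∂D.Z.μ + en D a s := by
      have i1 := hi' (S := Ico t (t + 1)) fun _ j => j.1
      have i2 := hi' (S := Ici s) fun _ j => mem_Ici.2 (by linarith [mem_Ici.1 j])
      rw [en, ← setIntegral_union (Disjoint.set_prod_right (disjoint_left.2 fun _ i j =>
        i.2.not_ge (hs.trans j)) _ _) (ms measurableSet_Ici) i1 i2]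
      exact setIntegral_mono_set (i1.union i2) (.of_forall n0) (LE.le.eventuallyLE
        fun x k => (ts k.2).imp (fun j => ⟨trivial, j.1, by linarith [j.2]⟩) fun j => ⟨trivial, j.1⟩)
    rw [image_id, ← k2] at k1
    rw [sp le_rfl (by linarith)] at k5
    rw [sp (by linarith) hs] at k4
    have := (le_abs_self _).trans (k1.trans (mul_le_mul_of_nonneg_left k5 (by positivity)))
    linarith
  simpa using le_of_tendsto_of_tendsto (tendsto_const_nhds.sub lim)
    ((tendsto_const_nhds.add lim).const_mul _) ((eventually_ge_atTop (t + 1)).mono key)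

theorem decStmt (D : YD Y.I Y.M κ lam) : DecStmt D := fun h => by
  obtain ⟨θ, θ0, hθ⟩ := energy h
  have ht := tam h
  obtain ⟨C, hC, hA⟩ := ht.neg.good
  obtain ⟨_, hA'⟩ := good_adj hC hA
  obtain ⟨S, -, hS⟩ := Cht98.sob_cyl D.F.toPre Y.dim.le
  set d := Real.log ((θ + 2) / (θ + 1)) / 2 with hd
  refine ⟨d, half_pos (Real.log_pos ((one_lt_div (by positivity)).2 (by linarith))),
    fun T a ha v => ?_⟩
  let ρ : Y.M × ℝ → ℝ := fun x => smoothTransition (8 * (x.2 - T) - 1)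
  have cz : Dr59.Cz (IC Y.I) univ (hZ Y T) ρ := ⟨fun x _ => sm_snd (f := fun t =>
    smoothTransition (8 * (t - T) - 1)) (by fun_prop) x, fun x _ k =>
    (continuous_snd.continuousAt.eventually (eventually_lt_nhds (show x.2 < T + 1 / 8 by
      linarith [not_lt.1 fun j : T < x.2 => k ⟨trivial, j⟩]))).mono fun y hy =>
      smoothTransition.zero_of_nonpos (by linarith)⟩
  have fa : Fo (IC Y.I) 1 (ρ • a) :=
    ⟨fun x => cz.sm_smul ha.sm x trivial, fun x => cz.dg_smul ha.dg x trivial⟩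
  have e1 : EqOn (c2 D.Z (dM (IC Y.I) (ρ • a))) (c2 D.Z (dM (IC Y.I) a)) (hZ Y (T + 1 / 4)) :=
    fun x hx => fm_ext fun s => congrArg (e2 · _ _) (Dr59.dM_eqOn op_Z (fun y hy => by
      rw [Pi.smul_apply', show ρ y = 1 from smoothTransition.one_of_one_le
        (by linarith [mem_Ioi.1 hy.2]), one_smul]) hx)
  have sb : ∀ {x : Y.M × ℝ}, T + 1 / 4 < x.2 → x ∈ hZ Y T := fun k => ⟨trivial, by
    rw [mem_Ioi]; linarith⟩
  have h0 : ∀ x ∈ hZ Y (T + 1 / 4), hs D.Z D.B.o x (c2 D.Z (dM (IC Y.I) (ρ • a)) x) = 0 :=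
    fun x hx => e1 hx ▸ ha.asd x (sb hx.2)
  have hi : IntegrableOn (fun x => ‖c2 D.Z (dM (IC Y.I) (ρ • a)) x‖ ^ 2) (univ ×ˢ Ici (T + 1 / 2))
      D.Z.μ := (ha.sq.mono_set fun x k => sb (by linarith [mem_Ici.1 k.2])).congr_fun
        (fun x k => by simp only [e1 (x := x) ⟨trivial, by rw [mem_Ioi]; linarith [mem_Ici.1 k.2]⟩])
        (MeasurableSet.univ.prod measurableSet_Ici)
  have mo : ∀ {S : Set ℝ} {t : ℝ}, T + 1 / 2 ≤ t → S ⊆ Ici t → ∫ x in univ ×ˢ S,
      ‖c2 D.Z (dM (IC Y.I) (ρ • a)) x‖ ^ 2 ∂D.Z.μ ≤ en D (ρ • a) t := fun k l =>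
    setIntegral_mono_set (hi.mono_set (prod_mono_right (Ici_subset_Ici.2 k)))
      (.of_forall fun _ => sq_nonneg _) (prod_mono_right l).eventuallyLE
  obtain ⟨K, hK⟩ := geo_dec θ0 (fun p hp q _ k => mo hp (Ici_subset_Ici.2 k))
    (fun _ => integral_nonneg fun _ => sq_nonneg _) (hθ _ _ fa
      (fun x k => h0 x ⟨trivial, by rw [mem_Ioi]; linarith⟩) hi)
  let W := cw D.F.toPre (X := Ioi (T + 1)) (fun t => t - 1 / 2) (fun t => t + 1 / 2) (l := 1)
    fun t => by linarith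
  let f : Ioi (T + 1) → Y.M × ℝ → Ext (Y.E × ℝ) := fun t => Real.exp (d * t) • dM (IC Y.I) (ρ • a)
  have ff : ∀ t, Fo (IC Y.I) 2 (f t) := fun t => fa.d.smul _
  have f0 : ∀ t, ∀ x ∈ hZ Y (T + 1 / 4), hs D.Z D.B.o x (c2 D.Z (f t) x) = 0 := fun t x hx => by
    simp only [f, Qab60.c2_smul, Pi.smul_apply, map_smul, h0 x hx, smul_zero]
  have wS : W.On fun _ x => x ∈ hZ Y (T + 1 / 4) := fun r hr t x k =>
    ⟨trivial, by rw [mem_Ioi]; linarith [k.2.1, mem_Ioi.1 t.2]⟩
  have j1 : W.Jt 2 1 fun t => c2 D.Z (f t) := .one (fun t => sm_c2 (ff t).sm)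
    ⟨fun k => absurd k two_ne_zero, fun r hr => ⟨K * Real.exp d, fun t => by
      have k1 : T + 1 / 2 ≤ t.1 - 1 / 2 := by linarith [mem_Ioi.1 t.2]
      simp only [f, Qab60.c2_smul, Pi.smul_apply, norm_smul, mul_pow, integral_const_mul, Real.norm_eq_abs,
        sq_abs]
      refine (mul_le_mul_of_nonneg_left ((mo k1 fun s k => ?_).trans (hK _ k1))
        (sq_nonneg _)).trans_eq ?_
      · exact mem_Ici.2 (by linarith [k.1])
      · rw [mul_left_comm, sq, ← Real.exp_add, ← Real.exp_add, hd]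
        congr 2; ring⟩⟩
  have j2 : ∀ j, W.Jt 2 (j + 1) fun t => av D.Z D.B.o (f t) := fun j => by
    induction j with
    | zero => exact ((Lw78.Wn.Jt.cb ht.neg.cb_hs).app j1).clm (i2 ℝ _)
    | succ j ih =>
      exact ih.ell (F := D.Z) hC hA' ht.neg.ok.cliff.2
        (fun t x => maps_i2 x _ (hs_idem ht.neg.ok x _)) ((Lw78.Wn.Jt.cb (Cb_const 0)).congr
        (fun t => sm_app hA' (sm_av ht (ff t))) fun r hr t x k => adj0 ht (ff t)
          (by simp only [f, fa.d.d_smul, fa.dd, smul_zero]) op_Z (f0 t) (wS r hr t x k))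
  obtain ⟨A, hA⟩ := ((((j2 (v.length + 3)).sob0 hS).clm (s2 ℝ _)).congr (fun t => sm_c2 (ff t).sm)
    fun r hr t x k => (s2_av (f0 t x (wS r hr t x k))).symm).bd (1 / 4) (by norm_num)
  refine ⟨A, fun x hx => ?_⟩
  have k := hA ⟨x.2, hx.2⟩ v le_rfl x ⟨trivial, by simp only; linarith, by simp only; linarith⟩
  have k2 := Dw_clm (F := D.Z.toPre) isOpen_univ (Real.exp (d * x.2) • ContinuousLinearMap.id ℝ _) v
    (fun y _ => sm_c2 (F := D.Z) fa.d.sm y) (mem_univ x)
  simp only [f, Qab60.c2_smul] at k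
  rw [show (cylP D.F.toPre).Dw v (Real.exp (d * x.2) • c2 D.Z (dM (IC Y.I) (ρ • a))) x = _ from
    k2.trans (congrArg _ (Dw_on op_Z v e1 ⟨trivial, by
      rw [mem_Ioi]; linarith [mem_Ioi.1 hx.2]⟩))] at k
  rw [neg_mul, Real.exp_neg, ← div_eq_mul_inv, le_div_iff₀' (Real.exp_pos _)]
  simpa [norm_smul] using k

end Crest.Agent.X212.Qd40
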