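import Crest.Agent.X212.Qab60.Props

/-! X212 / QA-TAIL (helper40): decaying primitives of decaying closed two-forms. -/

set_option autoImplicit false
set_option linter.unusedSectionVars false
noncomputable section
open scoped Manifold ContDiff Topology
open MeasureTheory Set Function Filter
open Crest.Agent.R208.F (Ext ii)
open Crest.Agent.R208.FI (IsDeg)

namespace Crest.Agent.X212.Qd40
open An Sob92 Cyf70 Qab60 Num57 Map77
open Dr59 (SmAt dM rp Cl)
open Int54 (ic)
open M (Mf)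

section gen
variable {E : Type} [NormedAddCommGroup E] [NormedSpace ℝ E] [FiniteDimensional ℝ E]
  [MeasurableSpace E] [BorelSpace E]
  {HM : Type} [TopologicalSpace HM] {I : ModelWithCorners ℝ E HM} [I.Boundaryless]
  {M : Type} [TopologicalSpace M] [ChartedSpace HM M] [IsManifold I ∞ M]
  [T2Space M] [MeasurableSpace M] [BorelSpace M] {ι : Type} [Fintype ι] {N N' : Type} [NormedAddCommGroup N] [NormedSpace ℝ N]
  [NormedAddCommGroup N'] [NormedSpace ℝ N'] (F : Pre I M ι) {U : Set M}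

/-- differentiation under the integral sign -/
theorem D_int [CompleteSpace N] {α : Type} [MeasurableSpace α] {ν : Measure α} {u : α → M → N}
    {x₀ : M} (hO : U ∈ 𝓝 x₀) {bd : α → ℝ} (hb : Integrable bd ν)
    (hm : ∀ x ∈ U, Integrable (u · x) ν) (hm' : ∀ a, Integrable (fun s => F.D a (u s) x₀) ν)
    (h : ∀ᵐ s ∂ν, 0 ≤ bd s ∧ ∀ x ∈ U, MDifferentiableAt I 𝓘(ℝ, N) (u s) x ∧
      ∀ a, ‖F.D a (u s) x‖ ≤ bd s) :
    MDifferentiableAt I 𝓘(ℝ, N) (fun x => ∫ s, u s x ∂ν) x₀ ∧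
      ∀ a, F.D a (fun x => ∫ s, u s x ∂ν) x₀ = ∫ s, F.D a (u s) x₀ ∂ν := by
  obtain ⟨R, hR, hRT⟩ := exists_rinv F.sm x₀ (span_coef F x₀)
  have hx₀ := mem_chart_source HM x₀
  have h3 := Dr59.tendsto_chart_symm (I := I) x₀
  have h4 := (show ∀ᶠ y in 𝓝 (extChartAt I x₀ x₀), y ∈ (extChartAt I x₀).target from
    extChartAt_target_mem_nhds x₀).and (h3.eventually ((hRT.and
      (hR.continuousAt.norm.eventually (gt_mem_nhds (lt_add_one _)))).and hO))
  let L : (ι → N) →L[ℝ] E →L[ℝ] N := ((ContinuousLinearMap.compL ℝ E _ N).flip (R x₀)).comp (comb ι N)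
  have hi : Integrable (fun s a => F.D a (u s) x₀) ν := integrable_pi_iff.2 hm'
  have key := hasFDerivAt_integral_of_dominated_of_fderiv_le (μ := ν)
    (F := fun y s => u s ((extChartAt I x₀).symm y))
    (F' := fun y s => (comb ι N fun a => F.D a (u s) ((extChartAt I x₀).symm y)).comp
      (R ((extChartAt I x₀).symm y))) (bound := fun s => ‖comb ι N‖ * bd s * (‖R x₀‖ + 1)) h4
    (h4.mono fun y hy => (hm _ hy.2.2).1) (hm _ h4.self_of_nhds.2.2)
    (by simp only [extChartAt_to_inv]; exact (L.integrable_comp hi).1)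
    (h.mono fun s hs y hy => (ContinuousLinearMap.opNorm_comp_le _ _).trans (mul_le_mul
      (((comb ι N).le_opNorm _).trans (mul_le_mul_of_nonneg_left ((pi_norm_le_iff_of_nonneg hs.1).2
        (hs.2 _ hy.2.2).2) (norm_nonneg _))) hy.2.1.2.le (norm_nonneg _)
      (mul_nonneg (comb ι N).opNorm_nonneg hs.1))) ((hb.const_mul _).mul_const _)
    (h.mono fun s hs y hy => by
      have := chart_hasFDerivAt (by simpa using (extChartAt I x₀).map_target hy.1) hy.2.1.1
        (hs.2 _ hy.2.2).1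
      rwa [(extChartAt I x₀).right_inv hy.1] at this)
  have hd := of_chart_hasFDerivAt (u := fun x => ∫ s, u s x ∂ν) hx₀ key
  refine ⟨hd.1, fun a => ?_⟩
  rw [Pre.D_def, hd.2]
  simp only [extChartAt_to_inv]
  refine (ContinuousLinearMap.integral_apply (L.integrable_comp hi) _).trans
    (integral_congr_ae (h.mono fun s hs => ?_))
  exact ((of_chart_hasFDerivAt hx₀ (chart_hasFDerivAt hx₀ hRT.self_of_nhds
    (hs.2 _ (mem_of_mem_nhds hO)).1)).2 (F.e a)).symm

/-- a class of functions on an open set that is closed under the derivatives -/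
theorem sm_class (hU : IsOpen U) (P : (M → N) → Prop) (h : ∀ u, P u →
    (∀ x ∈ U, MDifferentiableAt I 𝓘(ℝ, N) u x) ∧ ∀ a, P (F.D a u)) {u : M → N} (hu : P u) {x : M}
    (hx : x ∈ U) : ContMDiffAt I 𝓘(ℝ, N) ∞ u x := by
  refine contMDiffAt_infty.2 fun n => ?_
  induction n generalizing u x with
  | zero => exact (contMDiffOn_zero_iff.2 fun y hy =>
      ((h u hu).1 y hy).continuousAt.continuousWithinAt).contMDiffAt (hU.mem_nhds hx)
  | succ n ih =>
    obtain ⟨hd, hP⟩ := h u hu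
    obtain ⟨R, hR, hRT⟩ := exists_rinv F.sm x (span_coef F x)
    have hx₀ := mem_chart_source HM x
    have hA : ContMDiffAt I 𝓘(ℝ, E →L[ℝ] N) n
        (fun y => (comb ι N fun a => F.D a u y).comp (R y)) x :=
      ((comb ι N).contMDiff.contMDiffAt.comp x (contMDiffAt_pi_space.2 fun a => ih (hP a) hx)).clm_comp
        (hR.of_le (by exact_mod_cast le_top))
    have hc : ContDiffAt ℝ (n + 1) (u ∘ (extChartAt I x).symm) (extChartAt I x x) := by
      refine contDiffAt_succ_iff_hasFDerivAt.2 ⟨fun y => (fun x => (comb ι N fun a =>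
        F.D a u x).comp (R x)) ((extChartAt I x).symm y), ⟨_, (show ∀ᶠ y in 𝓝 (extChartAt I x x),
          y ∈ (extChartAt I x).target from extChartAt_target_mem_nhds x).and
          ((Dr59.tendsto_chart_symm x).eventually (hRT.and (hU.mem_nhds hx))), fun y hy => ?_⟩, ?_⟩
      · have := chart_hasFDerivAt (by simpa using (extChartAt I x).map_target hy.1) hy.2.1
          (hd _ hy.2.2)
        rwa [(extChartAt I x).right_inv hy.1] at this
      · rw [← extChartAt_to_inv (I := I) x] at hA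
        exact (hA.comp _ ((chart_symm_smoothAt hx₀).of_le (by exact_mod_cast le_top))).contDiffAt
    have := hc.contMDiffAt.comp x (contMDiffAt_extChartAt (I := I) (n := n + 1) (x := x))
    exact_mod_cast this.congr_of_eventuallyEq (eq_comp_chart hx₀ u)

variable {F}

theorem D_on (hU : IsOpen U) {u v : M → N} (h : EqOn u v U) (a : ι) : EqOn (F.D a u) (F.D a v) U :=
  fun _ hx => dv_congr (eventually_of_mem (hU.mem_nhds hx) h)

theorem Dw_on (hU : IsOpen U) (w : List ι) : ∀ {u v : M → N}, EqOn u v U →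
    EqOn (F.Dw w u) (F.Dw w v) U := by
  induction w with
  | nil => exact id
  | cons a w ih => exact fun h => ih (D_on hU h a)

theorem Dw_clm (hU : IsOpen U) (L : N →L[ℝ] N') (w : List ι) : ∀ {u : M → N},
    (∀ x ∈ U, ContMDiffAt I 𝓘(ℝ, N) ∞ u x) →
      EqOn (F.Dw w fun x => L (u x)) (fun x => L (F.Dw w u x)) U := by
  induction w with
  | nil => exact fun _ _ _ => rfl
  | cons a w ih =>
    exact fun h => (Dw_on hU w fun x hx => dv_clm L ((h x hx).mdifferentiableAt (by simp))).trans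
      (ih fun x hx => dv_smoothAt (F.sm a x) (h x hx))

end gen

variable {Y : Mf 3} [CompactSpace Y.M] {κ : Type} [Fintype κ] {F : Fr Y.I Y.M κ} {T d : ℝ}
  {N N' : Type} [NormedAddCommGroup N] [NormedSpace ℝ N] [NormedAddCommGroup N'] [NormedSpace ℝ N']
  {g g' : Y.M × ℝ → N} {x : Y.M × ℝ} {w : Y.M × ℝ → Ext (Y.E × ℝ)}

theorem op_Z : IsOpen (hZ Y T) := isOpen_univ.prod isOpen_Ioi

/-- Cartan's formula for `∂_t` -/
theorem cartan_t (hw : SmAt (IC Y.I) w x) : HasDerivAt (fun s => w (x.1, s))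
    (dM (IC Y.I) (ic (IC Y.I) (ce F.e none) w) x + ii (0, 1) (dM (IC Y.I) w x)) x.2 := by
  have h1 := hw.diff Dr59.ne0
  have h2 := h1.hasFDerivAt.comp_hasDerivAt x.2 (f := fun s => ((extChartAt (IC Y.I) x x).1, s))
    ((hasDerivAt_const _ _).prodMk (hasDerivAt_id _))
  have e : dM (IC Y.I) (ic (IC Y.I) (ce F.e none) w) x =
      R208.F.d (fun u => ii (0, 1) (rp (IC Y.I) x w u)) (extChartAt (IC Y.I) x x) := by
    refine R208.F.d_congr (eventually_of_mem (extChartAt_target_mem_nhds x) fun u hu => ?_)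
    rw [Int54.rp_ic _ _ hu, dv_none ((Dr59.contMDiffAt_chart
      ((extChartAt (IC Y.I) x).map_target hu)).mdifferentiableAt Dr59.ne0)]
    exact congrArg (fun v => ii v _) (HasDerivAt.deriv
      ((hasDerivAt_const _ (extChartAt Y.I x.1 ((extChartAt (IC Y.I) x).symm u).1)).prodMk
        (hasDerivAt_id' _)))
  rw [e, dM, R208.FI.cartan _ h1, add_sub_cancel]
  exact h2.congr_of_eventuallyEq (.of_forall fun s => (Dr59.rp_self (x.1, s) w).symm)

theorem ee_t (a : Option κ) (y : Y.M) (s t : ℝ) : ee (cyl F) (y, s) a = ee (cyl F) (y, t) a := by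
  cases a <;> rfl

theorem c_t (a b k : Option κ) (y : Y.M) (s t : ℝ) :
    (cyl F).c a b k (y, s) = (cyl F).c a b k (y, t) := by
  cases a <;> cases b <;> cases k <;> rfl

theorem P_t (a b : Option κ) (y : Y.M) (s t : ℝ) : (cyl F).P a b (y, s) = (cyl F).P a b (y, t) := by
  cases a <;> cases b <;> rfl

/-- closed two-forms in components -/
theorem cl_id (hw : Cl (IC Y.I) 2 (hZ Y T) w) (hx : x ∈ hZ Y T) (a b : Option κ) :
    (cyl F).D none (k2 (cyl F) w a b) x = (cyl F).D a (k2 (cyl F) w none b) x -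
      (cyl F).D b (k2 (cyl F) w none a) x - ∑ k, (cyl F).c a b k x * k2 (cyl F) w none k x := by
  let L : Ext (Y.E × ℝ) →L[ℝ] ℝ := LinearMap.toContinuousLinearMap
    { toFun := fun c => e2 c (ee (cyl F) x a) (ee (cyl F) x b)
      map_add' := fun _ _ => e2_add _ _ _ _
      map_smul' := fun _ _ => e2_smul _ _ _ _ }
  have h1 := L.hasFDerivAt.comp_hasDerivAt x.2 (cartan_t (F := F) (hw.sm x hx))
  have h2 := k2_dM (cyl F) (Int54.cAt_ic le_rfl ((cyl F).sm none x) (hw.sm x hx))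
    (eventually_of_mem (op_Z.mem_nhds hx) fun y hy => (hw.dg y hy).ii _) a b
  have e : ∀ i, k1 (cyl F) (ic (IC Y.I) ((cyl F).e none) w) i = k2 (cyl F) w none i := fun i =>
    funext fun _ => (e2_eq _ _ _).symm
  rw [hw.cl x hx, map_zero, add_zero] at h1
  simp only [e] at h2
  rw [← h2]
  refine (D_none_at F.toPre ((sa_k2 (cyl F) (hw.sm x hx) a b).mdifferentiableAt (by simp))).trans
    (HasDerivAt.deriv (h1.congr_of_eventuallyEq (.of_forall fun s => ?_)))
  change e2 _ _ _ = e2 _ _ _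
  rw [ee_t a x.1 s x.2, ee_t b x.1 s x.2]

/-- the integral over the tail -/
def ti (g : Y.M × ℝ → N) (x : Y.M × ℝ) : N := ∫ s in Ioi (0 : ℝ), g (x.1, x.2 + s)

variable (F T d) in
/-- smooth decaying functions -/
structure Tc (g : Y.M × ℝ → N) : Prop where
  sm : ∀ x ∈ hZ Y T, ContMDiffAt (IC Y.I) 𝓘(ℝ, N) ∞ g x
  dc : Dc F T d g

theorem sh_mem (hx : x ∈ hZ Y T) {s : ℝ} (hs : 0 ≤ s) : (x.1, x.2 + s) ∈ hZ Y T :=
  ⟨trivial, lt_add_of_lt_of_nonneg hx.2 hs⟩

theorem D_sh {s : ℝ} (h : MDifferentiableAt (IC Y.I) 𝓘(ℝ, N) g (x.1, x.2 + s)) :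
    MDifferentiableAt (IC Y.I) 𝓘(ℝ, N) (fun z => g (z.1, z.2 + s)) x ∧
      ∀ a, (cyl F).D a (fun z => g (z.1, z.2 + s)) x = (cyl F).D a g (x.1, x.2 + s) := by
  have h1 : MDifferentiableAt (IC Y.I) 𝓘(ℝ, N) (fun z => g (z.1, z.2 + s)) x := h.comp x
    (mdifferentiableAt_fst.prodMk (mdifferentiableAt_snd.add mdifferentiableAt_const))
  refine ⟨h1, fun a => ?_⟩
  cases a with
  | none =>
    exact (D_none_at F.toPre h1).trans
      ((deriv_comp_add_const (fun r => g (x.1, r)) s x.2).trans (D_none_at F.toPre h).symm)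
  | some a => exact (D_some_at F.toPre h1 a).trans (D_some_at F.toPre h a).symm

namespace Tc

theorem D (h : Tc F T d g) (a : Option κ) : Tc F T d ((cyl F).D a g) :=
  ⟨fun x hx => dv_smoothAt ((cyl F).sm a x) (h.sm x hx), fun w => h.dc (a :: w)⟩

theorem md (h : Tc F T d g) (hx : x ∈ hZ Y T) : MDifferentiableAt (IC Y.I) 𝓘(ℝ, N) g x :=
  (h.sm x hx).mdifferentiableAt (by simp)

theorem congr (h : Tc F T d g) (e : EqOn g' g (hZ Y T)) : Tc F T d g' :=
  ⟨fun x hx => (h.sm x hx).congr_of_eventuallyEq (eventually_of_mem (op_Z.mem_nhds hx) e),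
    fun w => (h.dc w).imp fun _ k x hx => (Dw_on (F := (cyl F).toPre) op_Z w e hx).symm ▸ k x hx⟩

theorem clm (h : Tc F T d g) (L : N →L[ℝ] N') : Tc F T d fun x => L (g x) :=
  ⟨fun x hx => L.contMDiff.contMDiffAt.comp x (h.sm x hx), fun w => let ⟨C, k⟩ := h.dc w
    ⟨‖L‖ * C, fun x hx => by
      rw [Dw_clm op_Z L w h.sm hx, mul_assoc]; exact L.le_opNorm_of_le (k x hx)⟩⟩

theorem bd (h : Tc F T d g) : ∃ C ≥ 0, ∀ x ∈ hZ Y T, ∀ s ≥ 0,
    ‖g (x.1, x.2 + s)‖ ≤ C * Real.exp (-d * x.2) * Real.exp (-d * s) :=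
  let ⟨C, k⟩ := h.dc []
  ⟨|C|, abs_nonneg C, fun x hx s hs => (k _ (sh_mem hx hs)).trans (by
    rw [mul_assoc, ← Real.exp_add, ← mul_add]; gcongr; exact le_abs_self C)⟩

variable (hd : 0 < d)
include hd

theorem int (h : Tc F T d g) (hx : x ∈ hZ Y T) :
    IntegrableOn (fun s => g (x.1, x.2 + s)) (Ioi 0) :=
  let ⟨_, _, k⟩ := h.bd
  ((exp_neg_integrableOn_Ioi 0 hd).const_mul _).mono' (ContinuousOn.aestronglyMeasurable
    (fun s hs => (ContinuousAt.comp (f := fun s => (x.1, x.2 + s))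
      (h.sm _ (sh_mem hx (le_of_lt hs))).continuousAt (by fun_prop)).continuousWithinAt) measurableSet_Ioi)
    ((ae_restrict_mem measurableSet_Ioi).mono fun s hs => k x hx s (le_of_lt hs))

variable [CompleteSpace N]

theorem D_ti (h : Tc F T d g) (hx : x ∈ hZ Y T) : MDifferentiableAt (IC Y.I) 𝓘(ℝ, N) (ti g) x ∧
    ∀ a, (cyl F).D a (ti g) x = ti ((cyl F).D a g) x := by
  choose C C0 hC using fun a => (h.D a).bd
  have e : ∀ {x}, x ∈ hZ Y T → ∀ s ∈ Ioi (0 : ℝ), _ := fun hx s hs =>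
    D_sh (F := F) (h.md (sh_mem hx (le_of_lt hs)))
  have e' : ∀ a, (fun s => (cyl F).D a g (x.1, x.2 + s)) =ᵐ[volume.restrict (Ioi 0)]
      fun s => (cyl F).D a (fun z => g (z.1, z.2 + s)) x := fun a =>
    (ae_restrict_mem measurableSet_Ioi).mono fun s hs => ((e hx s hs).2 a).symm
  have S0 := Finset.sum_nonneg fun a (_ : a ∈ Finset.univ) => C0 a
  obtain ⟨h1, h2⟩ := D_int (cyl F).toPre (u := fun s z => g (z.1, z.2 + s)) (op_Z.mem_nhds hx)
    ((exp_neg_integrableOn_Ioi 0 hd).const_mul ((∑ a, C a) * Real.exp (-d * T)))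
    (fun y hy => h.int hd hy) (fun a => ((h.D a).int hd hx).congr (e' a))
    ((ae_restrict_mem measurableSet_Ioi).mono fun s hs => ⟨by positivity, fun y hy =>
      ⟨(e hy s hs).1, fun a => ((e hy s hs).2 a).symm ▸ (hC a y hy s (le_of_lt hs)).trans (by
        have := Finset.single_le_sum (fun a _ => C0 a) (Finset.mem_univ a)
        have : -d * y.2 ≤ -d * T := by nlinarith [show T < y.2 from hy.2]
        gcongr)⟩⟩)
  exact ⟨h1, fun a => (h2 a).trans (integral_congr_ae (e' a)).symm⟩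

theorem Dw_ti (w : List (Option κ)) : ∀ {g : Y.M × ℝ → N}, Tc F T d g →
    Tc F T d ((cyl F).Dw w g) ∧ EqOn ((cyl F).Dw w (ti g)) (ti ((cyl F).Dw w g)) (hZ Y T) := by
  induction w with
  | nil => exact fun h => ⟨h, fun _ _ => rfl⟩
  | cons a w ih =>
    exact fun h => ⟨(ih (h.D a)).1,
      (Dw_on op_Z w fun x hx => (h.D_ti hd hx).2 a).trans (ih (h.D a)).2⟩

theorem ti (h : Tc F T d g) : Tc F T d (ti g) := by
  refine ⟨fun x hx => sm_class (cyl F).toPre op_Z (fun u => ∃ g, Tc F T d g ∧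
    EqOn u (Qd40.ti g) (hZ Y T)) (fun u ⟨g, k, e⟩ => ⟨fun y hy => (k.D_ti hd hy).1.congr_of_eventuallyEq
      (eventually_of_mem (op_Z.mem_nhds hy) e), fun a => ⟨_, k.D a, (D_on op_Z e a).trans
        fun y hy => (k.D_ti hd hy).2 a⟩⟩) ⟨g, h, fun _ _ => rfl⟩ hx, fun w => ?_⟩
  obtain ⟨h1, h2⟩ := Dw_ti hd w h
  obtain ⟨C, -, k⟩ := h1.bd
  refine ⟨C * ∫ s in Ioi (0 : ℝ), Real.exp (-d * s), fun x hx => ?_⟩
  rw [h2 hx, mul_right_comm, ← integral_const_mul]
  exact norm_integral_le_of_norm_le ((exp_neg_integrableOn_Ioi 0 hd).const_mul _)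
    ((ae_restrict_mem measurableSet_Ioi).mono fun s hs => k x hx s (le_of_lt hs))

theorem ftc (h : Tc F T d g) (hx : x ∈ hZ Y T) : Qd40.ti ((cyl F).D none g) x = -g x := by
  obtain ⟨C, -, k⟩ := h.bd
  have h0 : Tendsto (fun s => g (x.1, x.2 + s)) atTop (𝓝 0) := by
    refine squeeze_zero_norm' ((eventually_ge_atTop 0).mono (k x hx)) ?_
    simpa using (Real.tendsto_exp_atBot.comp
      (tendsto_id.const_mul_atTop_of_neg (neg_neg_iff_pos.2 hd))).const_mul (C * Real.exp (-d * x.2))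
  have := integral_Ioi_of_hasDerivAt_of_tendsto' (fun s hs => by
    have m := h.md (sh_mem hx hs)
    exact (D_none_at F.toPre m).symm ▸ (diff_slice_snd m).hasDerivAt.comp_const_add x.2 s)
    ((h.D none).int hd hx) h0
  simpa [Qd40.ti] using this

theorem ti_clm [CompleteSpace N'] (h : Tc F T d g) (L : N →L[ℝ] N') (hx : x ∈ hZ Y T) :
    L (Qd40.ti g x) = ∫ s in Ioi (0 : ℝ), L (g (x.1, x.2 + s)) :=
  (L.integral_comp_comm (h.int hd hx)).symm

end Tc

theorem tailStmt (F : Fr Y.I Y.M κ) : TailStmt F := fun T d f hd hf hD => by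
  have h0 : Tc F T d (c2 (cyl F) f) := ⟨fun x hx =>
    (PiLp.continuousLinearEquiv 2 ℝ fun _ => ℝ).symm.contDiff.contMDiff.contMDiffAt.comp x
      ((contMDiffAt_pi_space (φ := fun x (s : _ × _) => k2 (cyl F) f s.1 s.2 x)).2
        fun s => sa_k2 (cyl F) (hf.sm x hx) s.1 s.2), hD⟩
  have hk : ∀ a b, Tc F T d (k2 (cyl F) f a b) := fun a b => h0.clm (pj ℝ (a, b))
  let L : V2 (Option κ) →L[ℝ] V1 (Option κ) := tp fun i => -pj ℝ (none, i)
  let u : Y.M × ℝ → V1 (Option κ) := fun x => L (ti (c2 (cyl F) f) x)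
  have hu : Tc F T d u := (h0.ti hd).clm L
  have e0 : ∀ i, EqOn (fun x => u x i) (-ti (k2 (cyl F) f none i)) (hZ Y T) := fun i x hx =>
    show -(pj ℝ (none, i)) (ti (c2 (cyl F) f) x) = -_ from
      congrArg Neg.neg (h0.ti_clm hd (pj ℝ (none, i)) hx)
  have e1 : ∀ i, EqOn (k1 (cyl F) (g1 (cyl F) u) i) (-ti (k2 (cyl F) f none i)) (hZ Y T) :=
    fun i x hx => by
    rw [Qab60.g1, k1_fm1]
    simp only [fun i => e0 i hx, Pi.neg_apply, mul_neg, Finset.sum_neg_distrib, ti,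
      ← integral_const_mul]
    rw [← integral_finsetSum _ fun a _ => ((hk none a).int hd hx).const_mul _]
    refine congrArg _ (integral_congr_ae (.of_forall fun s => ?_))
    simp only [fun a => P_t (F := F) i a x.1 x.2 (x.2 + s)]
    exact (cf (cyl F) _).p2' _ _ _
  have sb : Dr59.Sm (IC Y.I) (hZ Y T) (g1 (cyl F) u) := fun x hx =>
    smAt_fm1 (cyl F) fun a => (hu.clm (pj ℝ a)).sm x hx
  refine ⟨g1 (cyl F) u, sb, fun x _ => deg_fm1 _ _ x, fun x hx => (cf (cyl F) x).ext2'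
    (Dr59.isDeg_dM (.of_forall (deg_fm1 _ _))) (hf.dg x hx) fun a b => ?_,
    (hu.congr fun x hx => fm_ext fun i => (e1 i hx).trans (e0 i hx).symm).dc⟩
  have e2 : ∀ a i, (cyl F).D a (k1 (cyl F) (g1 (cyl F) u) i) x =
      -ti ((cyl F).D a (k2 (cyl F) f none i)) x := fun a i =>
    (D_on op_Z (e1 i) a hx).trans ((dv_neg _ _).trans (congrArg _ (((hk _ i).D_ti hd hx).2 a)))
  refine (k2_dM (cyl F) (sb x hx) (.of_forall (deg_fm1 _ _)) a b).trans
    (Eq.trans ?_ (neg_eq_iff_eq_neg.2 ((hk a b).ftc hd hx)))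
  have i1 := fun a i => ((hk none i).D a).int hd hx
  have i2 := fun k => ((hk none k).int hd hx).const_mul ((cyl F).c a b k x)
  rw [ti, setIntegral_congr_fun measurableSet_Ioi fun s hs => cl_id hf (sh_mem hx (le_of_lt hs)) a b]
  simp only [fun k s => c_t (F := F) a b k x.1 (x.2 + s) x.2, Prod.mk.eta]
  rw [integral_sub (by exact (i1 a b).sub (i1 b a)) (integrable_finsetSum _ fun k _ => i2 k),
    integral_sub (i1 a b) (i1 b a), integral_finsetSum _ fun k _ => i2 k, e2, e2]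
  simp only [fun i => e1 i hx, Pi.neg_apply, mul_neg, Finset.sum_neg_distrib, ti, integral_const_mul]
  ring

end Crest.Agent.X212.Qd40
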