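import Crest.Agent.X212.Qab60.Props
import Crest.Agent.X212.Dr59.Sph
import Crest.Agent.X212.Weil93.Main

/-! X212 / QA-H1Y (helper40): closed one-forms on a half cylinder over `S¹ × S²`. -/

set_option autoImplicit false
set_option linter.unusedSectionVars false
noncomputable section
open scoped Manifold ContDiff Topology
open Set Function

namespace Crest.Agent.X212.Qd40
open An Cyf70 Qab60 Dr59 Line51
open M (Mf)
open Rf65 (PR V3)

variable {Y : Mf 3} [CompactSpace Y.M] {κ : Type} [Fintype κ] {F : Fr Y.I Y.M κ}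
  {θ : Y.M → Circle} {ϖ : Y.M → V3} {T : ℝ}

theorem op_hZ : IsOpen (hZ Y T) := isOpen_univ.prod isOpen_Ioi

theorem bd_hZ (h : PR F θ ϖ) : Bd (IC Y.I) 1 (hZ Y T) 1 := by
  have h0 : IsOpen ({0}ᶜ : Set V3) := isOpen_compl_singleton
  have h1 := ((bd_zero.2 (hz_punct (k := 0) (d := 3) (by decide))).prod_circle h0 (bd0 h0
    (isConnected_compl_singleton_of_one_lt_rank (by
      rw [← Module.finrank_eq_rank, finrank_euclideanSpace_fin]; norm_num) 0).isPreconnected)).swap h0 isOpen_univ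
  have e : (fun p : Y.M × ℝ => (θ p.1, Real.exp p.2 • ϖ p.1)) '' (univ ×ˢ univ) =
      univ ×ˢ ({0}ᶜ : Set V3) := by
    refine Subset.antisymm ?_ fun q hq => ?_
    · rintro _ ⟨p, -, rfl⟩
      exact ⟨trivial, smul_ne_zero (Real.exp_ne_zero _) (norm_ne_zero_iff.1
        (by rw [h.nrm]; exact one_ne_zero))⟩
    · have hn : 0 < ‖q.2‖ := norm_pos_iff.2 hq.2
      obtain ⟨y, e1, e2⟩ := h.surj q.1 (‖q.2‖⁻¹ • q.2) (norm_smul_inv_norm hq.2)
      exact ⟨(y, Real.log ‖q.2‖), ⟨trivial, trivial⟩, Prod.ext e1 (by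
        simp only [e2, Real.exp_log hn, smul_inv_smul₀ hn.ne'])⟩
  rw [← e, bd_oe h.oe.loc h.oe.inj (isOpen_univ.prod isOpen_univ)] at h1
  exact (h1.of_prod_left isOpen_univ univ_nonempty).prod_convex isOpen_univ isOpen_Ioi (convex_Ioi T)

theorem csm_θ (h : PR F θ ϖ) (x : Y.M × ℝ) : CSm (IC Y.I) (fun q : Y.M × ℝ => θ q.1) x :=
  (h.oe.contMDiff x).fst

theorem cl_aZ (h : PR F θ ϖ) {U : Set (Y.M × ℝ)} : Cl (IC Y.I) 1 U (aZ θ) :=
  cl_ang fun x _ => csm_θ h x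

theorem ind_aZ (h : PR F θ ϖ) {c : ℝ} (hc : Ex (IC Y.I) (hZ Y T) (c • aZ θ)) : c = 0 := by
  have h1 := ex_oe (a := ∑ _i : Unit, c • ang ((𝓡 1).prod 𝓘(ℝ, V3)) Prod.fst) h.oe.loc h.oe.inj
    op_hZ (hc.congr fun x _ => by
      rw [Fintype.sum_unique, pm_smul, Pi.smul_apply, Pi.smul_apply, pm_ang contMDiffAt_fst
        ((h.oe.contMDiff x).mdifferentiableAt ne0)]
      rfl)
  have := ang_period (g := fun _ : Unit => Prod.fst) (c := fun _ => c) (fun _ _ _ => contMDiffAt_fst)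
    h1 (γ := fun t => (Circle.exp t, Real.exp (T + 1) • EuclideanSpace.single 0 1))
    ⟨fun t _ => (contMDiff_circleExp t).prodMk contMDiffAt_const, fun t _ => by
      obtain ⟨y, e1, e2⟩ := h.surj (Circle.exp t) (EuclideanSpace.single 0 1) (by simp)
      exact ⟨(y, T + 1), ⟨trivial, lt_add_one T⟩, by simp only [e1, e2]⟩⟩
    (by simp) (d := fun _ => 1) (u := fun _ => 1) (by simp)
  simpa using this

theorem h1Stmt (F : Fr Y.I Y.M κ) : H1Stmt F := fun θ ϖ h T a ha => by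
  obtain ⟨c, hc⟩ := Bd.span (ι := Unit) (bd_hZ h) (e := fun _ => (cl_aZ h).cls) (fun c hc _ => by
    rw [Fintype.sum_unique] at hc
    exact ind_aZ h (cls_eq_zero.1 ((cls_smul _ (cl_aZ h)).trans hc))) ha.cls
  rw [Fintype.sum_unique, ← cls_smul, eq_comm, cls_eq] at hc
  obtain ⟨φ, hφ⟩ := Weil93.exists_df op_hZ hc (ha.dg.sub ((cl_aZ h).smul _).dg)
  exact ⟨_, φ, fun x hx => (hφ x hx).1.contMDiffWithinAt, fun x hx => by
    rw [Pi.add_apply, (hφ x hx).2, Pi.sub_apply, add_sub_cancel]⟩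

end Crest.Agent.X212.Qd40
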